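import Crest.Agent.X212.Num57.Ut
import Crest.Agent.X212.Dr59.NbA
import Crest.Agent.X212.Dr59.Hd

/-!
# Row 212, BR-RN (helper83), part Abs: the numbers before and after a surgery along `S¹ × S²`

* `ex_of_pair`, `lat_of_ex`; `Ins` (the inside `D² × S² # n (-ℂP²)`), `Ins.push`, `Ins.lat`; `sur`.
-/

set_option autoImplicit false
set_option linter.unusedSectionVars false
noncomputable section
open Set Function Module Matrix
open scoped ContDiff Manifold Real
open Crest.Agent.R208.F (Ext)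
open Crest.Agent.R208.FI

namespace Crest.Agent.X212.Rn83
open Dr59 Int54 Num57

section gen

variable {E : Type*} [NormedAddCommGroup E] [NormedSpace ℝ E] [FiniteDimensional ℝ E] [MeasurableSpace E]
  [BorelSpace E] {H : Type*} [TopologicalSpace H] {I : ModelWithCorners ℝ E H} [I.Boundaryless]
  {M : Type*} [TopologicalSpace M] [ChartedSpace H M] [IsManifold I ∞ M] [T2Space M] [MeasurableSpace M]
  [BorelSpace M] [SecondCountableTopology M]
  {ι κ : Type} [Fintype ι] [DecidableEq ι] [Fintype κ] [DecidableEq κ] {o c f : M → Ext E} {U V D K : Set M}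
  {e : ι → M → Ext E} {d : ι → ℝ} {ε : κ → M → Ext E} {g : κ → ℝ}

/-- a dual family detects exact forms -/
theorem ex_of_pair (ho : Ori I o) (hb : Bd I 2 U (Fintype.card ι)) {a : ι → M → Ext E} (ha : ∀ i, Cl I 2 U (a i))
    (he : ∀ i, Cs I 2 U (e i)) (h : ∀ t : ι → ℝ, (∀ j, ∑ i, t i * ip I o (a i) (e j) = 0) → ∀ i, t i = 0)
    (hc : Cl I 2 U c) (h0 : ∀ i, ip I o c (e i) = 0) : Ex I U c := by
  have s : ∀ t : ι → ℝ, Cl I 2 U (∑ i, t i • a i) := fun t => cl_sum fun i _ => (ha i).smul _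
  have k : ∀ (t : ι → ℝ) j, ∑ i, t i * ip I o (a i) (e j) = ip I o (∑ i, t i • a i) (e j) := fun t j => by
    rw [(he j).ip_sum ho fun i _ => ((ha i).smul _).sm]
    simp only [ip_smul]
  have u : ∀ t, (s t).cls = ∑ i, t i • (ha i).cls := fun t => cls_sum fun i => (ha i).smul (t i)
  obtain ⟨t, ht⟩ := hb.span (fun t ht => h t fun j =>
    (k t j).trans ((he j).ip_ex ho (cls_eq_zero.1 ((u t).trans ht)))) hc.cls
  have x := cls_eq.1 ((u t).trans ht)
  simpa [h t fun j => (k t j).trans (((he j).ip_coh ho (s t).sm hc.sm x).trans (h0 j))] using x.symm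

theorem ip_orth (ho : Ori I o) (he : ∀ i, Cs I 2 U (e i)) (hc : Sm I U c) (t : ι → ℝ) (hf : Cs I 2 U f) :
    ip I o (c - ∑ i, t i • e i) f = ip I o c f - ∑ i, t i * ip I o (e i) f := by
  have s := fun i => (((he i).on U).smul (t i)).sm
  rw [hf.ip_sub ho hc (sm_sum fun i _ => s i), hf.ip_sum ho fun i _ => s i]
  simp only [ip_smul]

theorem orth (ho : Ori I o) (he : ∀ i, Cs I 2 U (e i)) (hg : ∀ i j, ip I o (e i) (e j) = diagonal d i j)
    (hd : ∀ i, d i ≠ 0) (hc : Sm I U c) (j : ι) : ip I o (c - ∑ i, (ip I o c (e i) / d i) • e i) (e j) = 0 := by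
  simp [ip_orth ho he hc _ (he j), hg, diagonal_apply, hd]

/-- an orthogonal family that detects exact forms is a lattice -/
theorem lat_of_ex (ho : Ori I o) (hU : IsOpen U) (he : ∀ i, Cs I 2 U (e i))
    (hg : ∀ i j, ip I o (e i) (e j) = diagonal d i j) (hd : ∀ i, d i ≠ 0)
    (h : ∀ c, Cl I 2 U c → (∀ i, ip I o c (e i) = 0) → Ex I U c) : Lat I o U U e (diagonal d) := by
  refine ⟨ho, hU, Subset.rfl, bd_of_span (fun i => ((he i).on U).cls) fun x => ?_, he, hg,
    det_diagonal.trans_ne (Finset.prod_ne_zero_iff.2 fun i _ => hd i)⟩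
  obtain ⟨c, hc, rfl⟩ := exists_cls x
  have s := fun i => ((he i).on U).smul (ip I o c (e i) / d i)
  rw [(cls_eq.2 (h _ (hc.sub (cl_sum fun i _ => s i)) (orth ho he hg hd hc.sm))).trans (cls_sum s)]
  exact Submodule.sum_mem _ fun i _ => Submodule.smul_mem _ _ (Submodule.subset_span (mem_range_self i))

theorem gram_sum (he : ∀ i, Cs I 2 U (e i)) (hg : ∀ i j, ip I o (e i) (e j) = diagonal d i j)
    (hg' : ∀ i j, ip I o (ε i) (ε j) = diagonal g i j) (h : ∀ i j, ip I o (e i) (ε j) = 0) :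
    ∀ i j, ip I o (Sum.elim e ε i) (Sum.elim e ε j) = diagonal (Sum.elim d g) i j := by
  rintro (i | i) (j | j)
  · simpa [diagonal_apply] using hg i j
  · simp [h]
  · simp [← ip_comm (he j).cl.dg, h]
  · simpa [diagonal_apply] using hg' i j

theorem integ_ex (ho : Ori I o) (hU : IsOpen U) (hK : IsCompact U) (h : Ex I U c) (h0 : ∀ x, x ∉ U → c x = 0) :
    integ I o c = 0 := by
  rw [← (cs_indicator hU cl_one hK Subset.rfl fun _ a b => (b a).elim).ip_ex ho h, ip]
  congr 1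
  funext x
  by_cases k : x ∈ U <;> simp [k, h0]

theorem nc (P : ι → Prop) [DecidablePred P] : ({i | P i}.ncard : ℝ) = ∑ i, if P i then 1 else 0 := by
  rw [← Finset.coe_filter_univ, ncard_coe_finset, Finset.card_filter]
  simp

theorem nc_sum (P : ℝ → Prop) (d : ι → ℝ) (g : κ → ℝ) :
    ({i | P (Sum.elim d g i)}.ncard : ℝ) = {i | P (d i)}.ncard + {i | P (g i)}.ncard := by
  classical
  simp only [nc, Fintype.sum_sum_type]
  rfl

variable (I) in
/-- the inside: `ε` are the exceptional classes, `f` is the class of the sphere of the wall -/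
structure Ins (o : M → Ext E) (D K : Set M) (ε : κ → M → Ext E) (g : κ → ℝ) (f : M → Ext E) : Prop where
  ori : Ori I o
  op : IsOpen D
  sub : K ⊆ D
  cs : ∀ i, Cs I 2 K (ε i)
  cf : Cs I 2 K f
  gram : ∀ i j, ip I o (ε i) (ε j) = diagonal g i j
  neg : ∀ i, g i < 0
  ef : ∀ i, ip I o (ε i) f = 0
  ff : ip I o f f = 0
  hz : HZ I 1 D
  ex : ∀ c, Cl I 2 D c → (∀ i, ip I o c (ε i) = 0) → ip I o c f = 0 → Ex I D c

variable {E' : Type*} [NormedAddCommGroup E'] [NormedSpace ℝ E'] [FiniteDimensional ℝ E'] [MeasurableSpace E']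
  [BorelSpace E'] {H' : Type*} [TopologicalSpace H'] {J : ModelWithCorners ℝ E' H'} [J.Boundaryless]
  {N : Type*} [TopologicalSpace N] [ChartedSpace H' N] [IsManifold J ∞ N] [T2Space N] [MeasurableSpace N]
  [BorelSpace N] [SecondCountableTopology N] (φ : PartialDiffeomorph I J M N ∞) {v : N → Ext E'}

theorem ip_psh2 (hK : K ⊆ φ.source) (hv : Ori J v) (ho : Ori I o) (hp : SameOn o (pm I J φ v) K) (hf : Cs I 2 K f) :
    ip J v (psh φ c) (psh φ f) = ip I o c f := by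
  rw [hf.ip_psh φ hK hv ho hp, hf.ip_congr fun x k => pm_psh φ (hK k) c]

theorem Ins.push (h : Ins I o D K ε g f) (hD : D ⊆ φ.source) (hv : Ori J v) (hp : SameOn o (pm I J φ v) K) :
    Ins J v (φ '' D) (φ '' K) (fun i => psh φ (ε i)) g (psh φ f) :=
  have s := h.sub.trans hD
  have k := fun c {f} => ip_psh2 (c := c) (f := f) φ s hv h.ori hp
  ⟨hv, pd_open φ h.op hD, image_mono h.sub, fun i => (h.cs i).psh φ s, h.cf.psh φ s,
    fun i j => (k _ (h.cs j)).trans (h.gram i j), h.neg, fun i => (k _ h.cf).trans (h.ef i), (k _ h.cf).trans h.ff,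
    (hz_pd φ h.op hD).2 h.hz, fun c a b b' => ex_pd φ h.op hD (h.ex _ (a.pm (pd_mp φ hD))
      (fun i => ((h.cs i).ip_psh φ s hv h.ori hp c).symm.trans (b i)) ((h.cf.ip_psh φ s hv h.ori hp c).symm.trans b'))⟩

theorem Ins.exS (h : Ins I o D K ε g f) (hd : Disjoint K V) (hc : Cl I 2 D c) (h0 : ip I o c f = 0) :
    Ex I (V ∩ D) c := by
  have s := fun i => (h.cs i).mono h.sub
  refine ((h.ex _ (hc.sub (cl_sum fun i _ => ((s i).on D).smul _)) (orth h.ori s h.gram (fun i => (h.neg i).ne) hc.sm)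
    (by simp [ip_orth h.ori s hc.sm _ (h.cf.mono h.sub), h0, h.ef])).mono inter_subset_right).congr fun x k => ?_
  simp [Finset.sum_apply, fun i => (h.cs i).eq_zero (hd.notMem_of_mem_right k.1)]

/-- **the lattice after the surgery** -/
theorem Ins.lat (h : Ins I o D K ε g f) (hV : IsOpen V) (hW : IsCompact (V ∪ D)) (hd : Disjoint K V)
    (hc : IsPreconnected (V ∩ D)) (hb : finrank ℝ (HR I 1 (V ∩ D)) = 1) [Module.Finite ℝ (HR I 1 V)]
    {ν : Type} [Fintype ν] [DecidableEq ν] {a : ν → M → Ext E} {G} (L : Lat I o (V ∪ D) (V ∪ D) a G)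
    (he : ∀ i, Cs I 2 V (e i)) (hg : ∀ i j, ip I o (e i) (e j) = diagonal d i j) (h0 : ∀ i, d i ≠ 0)
    (hx : ∀ c, Cl I 2 V c → Ex I (V ∩ D) c → (∀ i, ip I o c (e i) = 0) → Ex I V c) :
    ∃ (B : Type) (_ : Fintype B) (_ : DecidableEq B) (b : B → M → Ext E) (s : B → ℝ) (n : ℝ),
      Lat I o (V ∪ D) (V ∪ D) (Sum.elim (Sum.elim e ε) b) (diagonal (Sum.elim (Sum.elim d g) s)) ∧
      {i | 0 < s i}.ncard = n ∧ {i | s i < 0}.ncard = n ∧
      finrank ℝ (HR I 1 (V ∪ D)) + 1 = finrank ℝ (HR I 1 V) + n ∧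
      ∀ F, Sm I (V ∪ D) F → ip I o F f = 0 → ∑ i, (ip I o F (b i) / (2 * π)) ^ 2 / s i = 0 := by
  have := Int54.sigmaCompact (I := I) M
  obtain ⟨χ, hχ⟩ := exists_cut (I := I) hV h.op
  have sK := h.sub.trans (subset_union_right (s := V))
  have cf := h.cf.mono sK
  have c1 : ∀ i, Cs I 2 (V ∪ D) (Sum.elim e ε i) :=
    Sum.rec (fun i => (he i).mono subset_union_left) fun i => (h.cs i).mono sK
  have g1 := gram_sum he hg h.gram fun i j => (he i).ip_disj (h.cs j) hd.symm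
  have n1 : ∀ i, Sum.elim d g i ≠ 0 := Sum.rec h0 fun i => (h.neg i).ne
  have f1 : ∀ i, ip I o (Sum.elim e ε i) f = 0 := Sum.rec (fun i => (he i).ip_disj h.cf hd.symm) h.ef
  have key : ∀ c (k : Cl I 2 (V ∪ D) c), (∀ i, ip I o c (Sum.elim e ε i) = 0) → ip I o c f = 0 →
      ∃ u, hχ.dl 1 u = k.cls := fun c k a b =>
    have k' := k.mono subset_union_right
    mv_ker hV h.op hχ (cls_eq_zero.2 (hx c (k.mono subset_union_left) (h.exS hd k' b) fun i => a (.inl i)))
      (cls_eq_zero.2 (h.ex c k' (fun i => a (.inr i)) b))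
  have b1 : finrank ℝ (LinearMap.range (res (I := I) (k := 1) (inter_subset_left : V ∩ D ⊆ V))) +
      finrank ℝ (HR I 1 (V ∪ D)) = finrank ℝ (HR I 1 V) := by
    rw [← LinearMap.finrank_range_add_finrank_ker (res (inter_subset_left : V ∩ D ⊆ V)), ← LinearMap.finrank_range_of_inj
      (f := res (subset_union_left : V ⊆ V ∪ D)) ((injective_iff_map_eq_zero _).2 fun x k =>
        res_inj1 hV h.op hc k (h.hz.eq _)), le_antisymm (a := LinearMap.range _) (b := LinearMap.ker _) ?_ fun y k =>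
      (mv_mid hV h.op hχ (z := 0) (k.trans (map_zero _).symm)).imp fun _ => And.left]
    rintro _ ⟨x, rfl⟩
    rw [LinearMap.mem_ker, res_res, ← res_res subset_union_right inter_subset_right, h.hz.eq (res _ x), map_zero]
  by_cases z : Ex I (V ∪ D) f
  · have z0 : ∀ c, Cl I 2 (V ∪ D) c → ip I o c f = 0 := fun c k =>
      integ_ex h.ori L.op hW (k.mul_ex z) fun x m => by simp [cf.eq_zero m]
    have z1 : ∀ u, hχ.dl 1 u = 0 := fun u => by
      obtain ⟨u, k, rfl⟩ := exists_cls u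
      exact cls_eq_zero.2 (L.ex (hχ.cf.cl_mul k) fun i => integ_ex h.ori L.op hW (mul_assoc _ u _ ▸ hχ.cf.ex_mul
        (k.mul_ex (h.exS hd ((L.cs i).on D) (z0 _ ((L.cs i).on _))))) fun x m => by simp [(L.cs i).eq_zero m])
    rw [LinearMap.range_eq_top.2 fun u => let ⟨y, t, k⟩ := mv_int hχ (z1 u); ⟨y, by simp [k, h.hz.eq t]⟩,
      finrank_top, hb] at b1
    refine ⟨Empty, _, _, Empty.elim, Empty.elim, 0, lat_of_ex h.ori L.op (Sum.rec c1 (·.elim))
      (gram_sum c1 g1 (·.elim) fun _ => (·.elim)) (Sum.rec n1 (·.elim)) fun c k m => ?_, by simp [nc], by simp [nc],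
      by simp [← b1, add_comm], by simp⟩
    obtain ⟨u, m⟩ := key c k (fun i => m (.inl i)) (z0 c k)
    exact cls_eq_zero.1 (m.symm.trans (z1 u))
  obtain ⟨u₀, m₀⟩ := key f (cf.on _) (fun i => (ip_comm cf.cl.dg _).trans (f1 i)) h.ff
  have sp : ∀ {u : HR I 1 (V ∩ D)}, u ≠ 0 → ∀ u', ∃ r : ℝ, r • u = u' := fun k =>
    (finrank_eq_one_iff_of_nonzero' _ k).1 hb
  rw [LinearMap.range_eq_bot.2 (LinearMap.ext fun y => by_contra fun k => let ⟨r, k⟩ := sp k u₀
    z (cls_eq_zero.1 (by rw [← m₀, ← k, map_smul, dl_res_left hV h.op, smul_zero]))), finrank_bot] at b1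
  obtain ⟨i, hi⟩ : ∃ i, ip I o (a i) f ≠ 0 := by_contra fun k => z (L.ex (cf.on _) fun i =>
    (ip_comm cf.cl.dg _).trans (not_not.1 (not_exists.1 k i)))
  have cq := (L.cs i).sub' (cs_sum (s := Finset.univ) fun j _ => (c1 j).smul (ip I o (a i) (Sum.elim e ε j) / Sum.elim d g j))
  have oq := orth h.ori c1 g1 n1 ((L.cs i).on _).sm
  have fq := ip_orth h.ori c1 ((L.cs i).on _).sm (fun j => ip I o (a i) (Sum.elim e ε j) / Sum.elim d g j) cf
  simp only [f1, mul_zero, Finset.sum_const_zero, sub_zero] at fq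
  rw [← fq] at hi
  generalize a i - _ = q at cq oq hi
  let t : Bool → ℝ := fun b => (cond b 1 (-1) - ip I o q q) / (2 * ip I o q f)
  have cb := fun b => cq.add (cf.smul (t b))
  have ib : ∀ {F}, Sm I (V ∪ D) F → ∀ b, ip I o F (q + t b • f) = ip I o F q + t b * ip I o F f := fun k b => by
    rw [ip_add_right cq (cf.smul _) h.ori k, ip_smul_right]
  refine ⟨Bool, _, _, fun b => q + t b • f, fun b => cond b 1 (-1), 1, lat_of_ex h.ori L.op (Sum.rec c1 cb)
    (gram_sum c1 g1 (fun b b' => ?_) fun j b => ?_) (Sum.rec n1 fun b => by cases b <;> simp) fun c k m => ?_,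
    by norm_num [nc, -Finset.sum_boole], by norm_num [nc, -Finset.sum_boole], by simp [← b1],
    fun F k m => by simp [ib k, m, div_neg]⟩
  · rw [ib ((cb b).on _).sm, ip_comm (cb b).cl.dg, ip_comm (cb b).cl.dg, ib (cq.on _).sm, ib (cf.on _).sm, h.ff,
      ip_comm cf.cl.dg]
    cases b <;> cases b' <;> simp [t] <;> field_simp <;> ring
  · rw [ib ((c1 j).on _).sm, f1, ip_comm (c1 j).cl.dg, oq, mul_zero, add_zero]
  have m1 := (ib k.sm true).symm.trans (m (.inr true))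
  have m2 := (ib k.sm false).symm.trans (m (.inr false))
  have m3 : ip I o c f = 0 := by
    have : ip I o c f = ip I o q f * (t true - t false) * ip I o c f := by simp only [t, cond]; field_simp; ring
    linear_combination this + ip I o q f * (m1 - m2)
  obtain ⟨u, hu⟩ := key c k (fun i => m (.inl i)) m3
  obtain ⟨r, rfl⟩ := sp (u := u₀) (fun k => z (cls_eq_zero.1 (by rw [← m₀, k, map_zero]))) u
  have x := cls_eq.1 (hu.symm.trans ((map_smul _ r u₀).trans (congrArg (r • ·) m₀)) : _ = ((cf.on _).smul r).cls)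
  rw [m3, mul_zero, add_zero, cq.ip_coh h.ori k.sm ((cf.on _).smul r).sm x, ip_smul, ip_comm cf.cl.dg] at m1
  simpa [(mul_eq_zero.1 m1).resolve_right hi] using x

end gen

open M Br55 Line51 Orx52

variable {lam κ : Type} [Fintype lam] [Fintype κ] [DecidableEq κ] {X X' : Mf 4} [CompactSpace X.M] [CompactSpace X'.M]
  {o f : X.M → Ext X.E} {o' : X'.M → Ext X'.E} {p : X.M → Matrix lam lam ℂ} {q u : X'.M → Matrix lam lam ℂ}
  {V D K : Set X.M} {V' D' : Set X'.M} {ε : κ → X.M → Ext X.E} {g : κ → ℝ} {β sg l2 β' sg' l2' : ℝ}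

/-- **surgery** -/
theorem sur (φ : PartialDiffeomorph X'.I X.I X'.M X.M ∞) (hI : Ins X.I o D K ε g f) (hd : Disjoint K V)
    (hW : V ∪ D = univ) (hW' : V' ∪ D' = univ) (hV : IsOpen V') (hD : IsOpen D') (hs : V' ⊆ φ.source)
    (e1 : φ '' V' = V) (e2 : φ '' (V' ∩ D') = V ∩ D) (hφ : Pos X'.I X.I φ V' o' o)
    (hp : (⟨p, 0⟩ : Ln X.E X.M lam).On X.I univ) (hq : (⟨q, 0⟩ : Ln X'.E X'.M lam).On X'.I univ)
    (hu : Uni X'.I q (fun z => p (φ z)) u V') (hz : HZ X'.I 2 D') (hc : IsPreconnected (V' ∩ D'))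
    (hb : Bd X'.I 1 (V' ∩ D') 1) (hb' : Bd X'.I 1 D' 1) {a} (ha : Cl X'.I 1 D' a) (hn : ¬Ex X'.I (V' ∩ D') a)
    (hf : ip X.I o (Fp X p) f = 0) (h : NbX X o p univ β sg l2) (h' : NbX X' o' q univ β' sg' l2') :
    β = β' + 1 ∧ sg = sg' - Fintype.card κ ∧ l2 = l2' + ∑ i, (ip X.I o (Fp X p) (ε i) / (2 * π)) ^ 2 / g i := by
  have := Int54.sigmaCompact (I := X'.I) X'.M
  obtain ⟨_, _, _, _, _, L, -⟩ := id h
  obtain ⟨ι, _, _, e, d, L', rfl, rfl, rfl⟩ := h'
  have fi := (hl_univ L'.ori).fin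
  have oS := hV.inter hD
  have sS := (inter_subset_left (t := D')).trans hs
  have s1 := Rk.surj_of_ne hb (f := res inter_subset_right) (x := ha.cls) fun k => hn (cls_eq_zero.1 k)
  have := hb.finite
  have := hb'.finite
  have r1 : finrank ℝ (HR X'.I 1 (V' ∩ D')) = 1 := hb.finrank_le.antisymm (finrank_pos_iff_exists_ne_zero.2
    ⟨(ha.mono inter_subset_right).cls, fun k => hn (cls_eq_zero.1 k)⟩)
  have i1 := (LinearMap.injective_iff_surjective_of_finrank_eq_finrank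
    ((hb'.finrank_le.trans r1.ge).antisymm (LinearMap.finrank_le_finrank_of_surjective s1))).2 s1
  rw [← hW] at h L hp
  rw [← hW'] at L' hq fi
  have bj : Bijective (res (I := X'.I) (k := 1) (subset_union_left : V' ⊆ V' ∪ D')) :=
    ⟨res_inj_union hV hD i1 fun j k => by obtain rfl : j = 0 := by omega
                                          exact sj0 oS hc, res_surj_union hV hD s1⟩
  have cW : IsCompact (V' ∪ D') := hW' ▸ isCompact_univ
  choose e' c1 c2 using fun i => exists_cs hV hD cW ((L'.cs i).on _) (hz _ ((L'.cs i).on _))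
  have c3 : ∀ {c}, Cl X'.I 2 (V' ∪ D') c → ∀ i, ip X'.I o' c (e' i) = ip X'.I o' c (e i) := fun {c} k i => by
    have c : Cs X'.I 2 (V' ∪ D') c := ⟨hW' ▸ k, .of_compactSpace _, hW'.ge.trans' (subset_univ _)⟩
    rw [ip_comm c.cl.dg, ip_comm c.cl.dg, c.ip_coh L'.ori ((L'.cs i).on _).sm ((c1 i).on _).sm (c2 i)]
  have sm := same_symm hφ
  have ps := fun i => (c1 i).ip_psh φ hs hI.ori L'.ori sm
  obtain ⟨χ, hχ⟩ := exists_cut (I := X'.I) hV hD
  subst e1
  have := Module.Finite.of_surjective _ bj.2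
  have := Module.Finite.of_injective _ (pd_st_bij (k := 1) φ hV hs).1
  obtain ⟨B, _, _, b, s, n, k, k1, k2, k3, k4⟩ := hI.lat (d := d) (pd_open φ hV hs) (hW ▸ isCompact_univ) hd
    (e2 ▸ hc.image _ (φ.contMDiffOn.continuousOn.mono sS)) (e2 ▸ (finrank_pd φ oS sS 1).trans r1) L
    (fun i => (c1 i).psh φ hs) (fun i j => by
      rw [ip_psh2 φ hs hI.ori L'.ori sm (c1 j), c3 ((c1 i).on _), ip_comm (c1 i).cl.dg, c3 ((L'.cs j).on _), L'.gram,
        ← L'.symm, transpose_apply, L'.symm])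
    (fun i => Finset.prod_ne_zero_iff.1 (det_diagonal.symm.trans_ne L'.det) i (Finset.mem_univ i))
    fun c a1 a2 a3 => by
      have a4 := a1.pm (pd_mp φ hs)
      obtain ⟨x, y, -⟩ := mv_mid hV hD hχ (y := a4.cls) (z := 0)
        ((cls_eq_zero.2 ((e2 ▸ a2).pm (pd_mp φ sS))).trans (map_zero _).symm)
      obtain ⟨x, m, rfl⟩ := exists_cls x
      have y := cls_eq.1 y
      exact ex_pd φ hV hs (by simpa using ((L'.ex m fun i => by
        rw [← c3 m, (c1 i).ip_coh L'.ori (m.mono subset_union_left).sm a4.sm y, ← ps, a3]).mono subset_union_left).sub y)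
  have a : (⟨fun z => p (φ z), 0⟩ : Ln X'.E X'.M lam).On X'.I V' :=
    on_comp hp ((pd_mp φ hs).mono Subset.rfl subset_union_left)
  have F := hp.cl_F k.op
  have F' := hq.cl_F L'.op
  have ng := fun i => (hI.neg i).not_gt
  obtain ⟨rfl, rfl, rfl⟩ := nbx_uniq hp h ⟨_, _, _, _, _, k, rfl, rfl, rfl⟩
  rw [finrank_pd φ hV hs, ← (LinearEquiv.ofBijective _ bj).finrank_eq, hW'] at k3
  simp only [nc_sum (0 < ·), nc_sum (· < 0), Fintype.sum_sum_type, Sum.elim_inl, Sum.elim_inr, k4 _ F.sm hf, hI.neg, ng,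
    k1, k2, ofPred_false, ofPred_true, ncard_empty, ncard_univ, Nat.card_eq_fintype_card, Nat.cast_zero]
  refine ⟨by linarith, by ring, ?_⟩
  rw [add_zero, add_left_inj]
  refine Finset.sum_congr rfl fun i _ => ?_
  rw [ps, ← c3 F', (c1 i).ip_congr (c := pm _ _ φ _) (c' := Ln.F X'.I ⟨fun z => p (φ z), 0⟩) fun x hx => by
      rw [← hp.F_pull k.op hV ((pd_mp φ hs).mono Subset.rfl subset_union_left) hx]
      exact a.F_congr hV (fun _ _ => rfl) (fun x _ => congrFun (pm_zero _) x) hx,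
    (c1 i).ip_coh L'.ori (a.cl_F hV).sm (F'.mono subset_union_left).sm
      (Uni.ex_F (L := ⟨q, 0⟩) (L' := ⟨fun z => p (φ z), 0⟩) hV hu (hq.mono subset_union_left) a)]

end Crest.Agent.X212.Rn83
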