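import Crest.Agent.X212.Rn83.Abs
import Crest.Agent.X212.Dr59.NbR
import Crest.Agent.X212.Ds83.Main
import Crest.Agent.X212.Line51.Wd2

/-!
# Row 212, BR-RN (helper83): the numbers of the closed manifolds before and after a surgery

* `ins` (the inside of `rA x y` in a rod manifold), `ins_w` (in a word), `rod_side`, `rod_w`, `rn_w`, `rn : Br55.RnStmt L`.
-/

set_option autoImplicit false
set_option linter.unusedSectionVars false
noncomputable section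
open Set Function Module Matrix Metric
open scoped ContDiff Manifold Real
open Crest.Agent.R208.F (Ext)

namespace Crest.Agent.X212.Rn83
open Dr59 M Wd38 Cyl58 Nm96 Num57
open Br55 (NbX LP Dt RnStmt cp)
open Rod53 hiding Uni X rho
open Line51 hiding tp Cs
open Gl9 (S2)

section chart

variable {EN HN : Type} [NormedAddCommGroup EN] [NormedSpace ℝ EN] [FiniteDimensional ℝ EN]
  [TopologicalSpace HN] {IN : ModelWithCorners ℝ EN HN} [IN.Boundaryless]
  {Y : Type} [TopologicalSpace Y] [ChartedSpace HN Y] [IsManifold IN ∞ Y] [T2Space Y] [CompactSpace Y] {T : Tb IN Y}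
  {a : ℤ → Z2} {x y s : ℤ} {α o : Y → Ext EN} {O : Rod53.X T (wd a) → Ext E4} {U : Set (Rod53.X T (wd a))}
  [MeasurableSpace (Rod53.X T (wd a))] [BorelSpace (Rod53.X T (wd a))] [SecondCountableTopology (Rod53.X T (wd a))]

/-- the intersection number of two families of orders -/
def sl (a : ℤ → Z2) (x y : ℤ) (n n' : ℤ → ℝ) : ℝ :=
  ∑ c ∈ Finset.Ioc x y, lr (a (c - 1)) (a c) (n (c - 1)) (n c) (n' (c - 1)) (n' c)

theorem ins (H : Sa T a α o O x y U) (h : x < y) (hs : a y = s • a x) (h1 : (s : ℝ) * s = 1) {N : ℕ}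
    (hN : nv a x y = N + 2) {n : Fin N → ℤ → ℝ} (tr : ∀ i, TRa a x y (n i)) (n0 : ∀ i, n i x = 0 ∧ n i y = 0)
    (hg : ∀ i j, sl a x y (n i) (n j) = if i = j then -1 else 0) :
    ∃ ε f, Ins (𝓡 4) (-O) (T.disc (wd a) (cc x y) (Iio ((y - x) / 2 + 1 / 4))) (T.disc (wd a) (cc x y) (Iio ((y - x) / 2)))
      ε (fun _ => -(2 * π) ^ 2) f ∧ ∀ F (m : ℤ → ℝ), Cl (𝓡 4) 2 U F → WO T a α O x y F (fun k => m k.1) → TRa a x y m →
        ip (𝓡 4) (-O) F f = (2 * π) ^ 2 * (m x - s * m y) ∧ ∀ i, ip (𝓡 4) (-O) F (ε i) = (2 * π) ^ 2 * sl a x y m (n i) := by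
  have := Int54.sigmaCompact (I := 𝓡 4) (Rod53.X T (wd a))
  obtain ⟨B, hB, hd⟩ := hd_disc (T := T) (c := cc x y) (r := (y - x) / 2 + 1 / 4) H.iw h
    ⟨by unfold cc; linarith, by unfold cc; linarith⟩ ⟨by unfold cc; linarith, by unfold cc; linarith⟩ hN
  choose d d1 d2 d3 using fun i => exists_d H.iw h.le (tr i) (m := 0) (m' := 0) (by simp [dr, n0]) (by simp [dr, n0])
  choose e he using fun i => H.exists_ts' le_rfl h le_rfl ((H.prs_tot (d1 i)).1.trans (sub_self _))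
    ((H.prs_tot (d1 i)).2.trans (sub_self _))
  have pf : ∀ m, prs x y (dl1 x + (-s : ℝ) • dl1 y) m = m x - s * m y := fun m => by
    rw [prs_add, prs_smul, prs_dl le_rfl h.le, prs_dl h.le le_rfl, neg_mul, sub_eq_add_neg]
  obtain ⟨f, hf⟩ := H.exists_ts' le_rfl h le_rfl ((pf _).trans (by simp [pv, hs, ← mul_assoc, h1]))
    ((pf _).trans (by simp [qv, hs, ← mul_assoc, h1]))
  have ne : ∀ i, ∀ j ∈ Finset.Icc x y, od a x (d i) j = n i j := fun i j k => by simp [d2 i j k, dr]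
  have pe : ∀ i m, TRa a x y m → prs x y (d i) m = sl a x y m (n i) := fun i m k => by simp [sl, d3 i m k, kk]
  have g1 : ∀ i j, ip (𝓡 4) (-O) (e i) (e j) = diagonal (fun _ => -(2 * π) ^ 2) i j := fun i j => by
    rw [H.ip_ts (he i) (he j), prs_congr fun k a b _ => ne i k (Finset.mem_Icc.2 ⟨a, b⟩), pe j _ (tr i), hg]
    simp [diagonal_apply]
  have g2 : ∀ i, ip (𝓡 4) (-O) (e i) f = 0 := fun i => by
    rw [H.ip_ts (he i) hf, pf]
    simp [ne i, h.le, n0]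
  obtain ⟨j, j1, j2, j3⟩ : ∃ j, x ≤ j ∧ j < y ∧ dt (a j) (a y) ≠ 0 := by
    obtain ⟨c, c1, c2, u, -⟩ := exists_first h.le hN
    by_contra! k
    have k1 := k (c - 1) (by omega) (by omega)
    have k2 : dt (a c) (a y) = 0 := c2.eq_or_lt.elim (fun e => e ▸ dt_self _) (k c c1.le)
    have := u.sq
    refine wd_ne H.iw y (Prod.ext ?_ ?_) <;> simp only [dt, Prod.fst_zero, Prod.snd_zero] at * <;> grind
  obtain ⟨η, hη⟩ := exists_tt (a := a) H.xa (win x y) fun k => dl1 j k.1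
  have g3 : ip (𝓡 4) (-O) η f ≠ 0 := by
    rw [hf.ip η _ (hη.cl.mono (subset_univ _)) (H.wo (hη.oc U)), prs_congr fun j _ b _ => oh_win (by simp [wk]; omega), pf]
    simpa [wk, od_dl j1, j1.not_gt, j2, j3, Real.pi_ne_zero] using fun e : s = 0 => by simp [e] at h1
  have sK : T.disc (wd a) (cc x y) (Iio ((y - x) / 2)) ⊆ T.disc (wd a) (cc x y) (Iio ((y - x) / 2 + 1 / 4)) :=
    fun p k => ⟨k.1, Iio_subset_Iio (by linarith : ((y : ℝ) - x) / 2 ≤ (y - x) / 2 + 1 / 4) k.2⟩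
  have c1 := fun i => (he i).cs.mono H.ov_disc
  have c2 := hf.cs.mono H.ov_disc
  refine ⟨e, f, ⟨H.ori, hd.op, sK, c1, c2, g1, fun _ => neg_lt_zero.2 (by positivity), g2, ?_, hd.hz (by simp) (hB.hz 0),
    fun c k k1 k2 => ex_of_pair (ι := Option (Fin N)) (e := (·.elim f e)) (a := (·.elim η e)) H.ori
      (by simpa using hd.bd2 (bd_zero.2 (hB.hz 1))) (Option.rec (hη.cl.mono (subset_univ _)) fun i => (c1 i).on _)
      (Option.rec (c2.mono sK) fun i => (c1 i).mono sK) (fun t k => ?_) k (Option.rec k2 k1)⟩,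
    fun F m k k1 k2 => ⟨by rw [hf.ip F _ k k1, ← pf]; rfl, fun i => by rw [(he i).ip F _ k k1, ← pe i m k2]; rfl⟩⟩
  · rw [H.ip_ts hf hf, pf, od_add, od_smul]
    simp [od_dl, h.le, h, h.not_gt, hs, dt, mul_comm, mul_left_comm]
  · have t0 : t none = 0 := by simpa [g2, g3] using k none
    exact Option.rec t0 fun i => by simpa [t0, g1, diagonal_apply, Real.pi_ne_zero] using k (some i)

end chart

/-- the inside `S¹ × D³` -/
theorem rod_side {X : Mf 4} (Ξ : PartialDiffeomorph ((𝓡 1).prod 𝓘(ℝ, E3)) X.I (Circle × E3) X.M ∞) {r : ℝ}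
    (hΞ : univ ×ˢ ball 0 r ⊆ Ξ.source) {j : (Circle × S2) × ℝ → X.M} (hj : IsOE (((𝓡 1).prod (𝓡 2)).prod 𝓘(ℝ, ℝ)) X.I j)
    (jj : ∀ q, ∃ v ∈ ball 0 r, j q = Ξ (q.1.1, v)) {D S : Set X.M} (hD : D = Ξ '' (univ ×ˢ ball 0 r))
    (hS : S = j '' (univ ×ˢ Ioi 0)) : IsOpen D ∧ HZ X.I 2 D ∧ IsPreconnected S ∧ Bd X.I 1 S 1 ∧ Bd X.I 1 D 1 ∧
      ∃ a, Cl X.I 1 D a ∧ ¬Ex X.I S a := by
  subst hD hS
  have : PreconnectedSpace (Sp 2) := inferInstanceAs (PreconnectedSpace S2)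
  have o : IsOpen ((univ : Set Circle) ×ˢ ball (0 : E3) r) := isOpen_univ.prod isOpen_ball
  have sm : ∀ z ∈ Ξ '' (univ ×ˢ ball 0 r), CSm X.I (fun z => (Ξ.symm z).1) z := fun z k =>
    ((pd_mp_symm Ξ hΞ).sm z k).fst
  refine ⟨pd_open Ξ o hΞ, (hz_pd Ξ o hΞ).2 (hz_circle.prod_convex isOpen_univ isOpen_ball (convex_ball _ _)),
    (isPreconnected_univ.prod isPreconnected_Ioi).image _ hj.continuous.continuousOn,
    (bd_oe hj.loc hj.inj (isOpen_univ.prod isOpen_Ioi)).2 (Bd.prod_convex (univ_prod_univ ▸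
      ((bd_zero.2 (hz_sphere (d := 2) (k := 0) (by simp))).prod_circle isOpen_univ
        (bd0 isOpen_univ isPreconnected_univ)).swap isOpen_univ isOpen_univ) isOpen_univ isOpen_Ioi (convex_Ioi _)),
    (bd_pd Ξ o hΞ).2 (bd_circle.prod_convex isOpen_univ isOpen_ball (convex_ball _ _)), _, cl_ang sm, fun k => ?_⟩
  obtain ⟨v⟩ : Nonempty S2 := inferInstance
  have := ang_period (ι := Unit) (g := fun _ z => (Ξ.symm z).1) (c := 1) (d := 1) (u := 1) (U := j '' (univ ×ˢ Ioi 0))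
    (fun _ z ⟨q, _, e⟩ => let ⟨v, a, b⟩ := jj q; sm z ⟨(q.1.1, v), ⟨trivial, a⟩, b.symm.trans e⟩) (by simpa using k)
    (γ := fun t => j ((Circle.exp t, v), 1)) ⟨fun t _ => (hj.contMDiff _).comp t
      (((contMDiff_circleExp t).prodMk contMDiffAt_const).prodMk contMDiffAt_const),
      fun t _ => ⟨((Circle.exp t, v), 1), ⟨trivial, mem_Ioi.2 one_pos⟩, rfl⟩⟩ (by simp) fun _ t => by
        obtain ⟨v, a, b⟩ := jj ((Circle.exp t, v), 1)
        simpa [b] using congrArg Prod.fst (Ξ.left_inv (hΞ (a := (Circle.exp t, v)) ⟨trivial, a⟩))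
  simp at this

variable {Γ : Nm} {C : Cx Γ} {Λ : NmL Γ} {L : LCx C Λ} {w w' : Shp Γ} {hw : w.OK} {hw' : w'.OK} {X X' : TP V4}
  {R : Rz C hw X} {R' : Rz C hw' X'} {x y : ℤ} {n n' : Wd38.Wt} {lam : Type} [Fintype lam]

open scoped Cap57
attribute [local instance] nbMs nbBs nbSc

theorem bn_r' (t : TOK w n) (h : w.Rg x y) {j : ℤ} (h1 : x ≤ j) (h2 : j < y) : n.bn x y j = n.nr j := by
  rcases h1.eq_or_lt with rfl | k
  · exact bn_le le_rfl
  · obtain ⟨τ, e⟩ := h.fr j k h2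
    exact (bn_mid k h2.le).trans (t.rod j τ (h.lo.trans_lt k) (h2.trans_le h.hi) e)

theorem tra_bn (hw : w.OK) (t : TOK w n) (h : w.Rg x y) : TRa (w.bz x y) x y fun j => n.bn x y j := fun c a b => by
  have := h.lo; have := h.hi
  dsimp only
  rw [bz_r hw h (by omega) (by omega), bz_l hw h a b, bn_r' t h (by omega) (by omega), bn_mid a b]
  exact ⟨fun e => congrArg _ (t.eq c (by omega) (by omega) e), fun e => by rw [t.neg c (by omega) (by omega) e]; simp⟩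

theorem sl_bn (hw : w.OK) (t : TOK w n) (t' : TOK w n') (h : w.Rg x y) :
    sl (w.bz x y) x y (fun j => n.bn x y j) (fun j => n'.bn x y j) = pr w x y n n' :=
  Finset.sum_congr rfl fun c k => by
    obtain ⟨a, b⟩ := Finset.mem_Ioc.1 k
    dsimp only
    rw [bz_r hw h (by omega) (by omega), bz_l hw h a b, bn_r' t h (by omega) (by omega), bn_mid a b,
      bn_r' t' h (by omega) (by omega), bn_mid a b]
    rfl

theorem wo_line (W : WL L R n lam) (h : w.Rg x y) : WO (C.T (w.kn x)) (w.bz x y) (al C (w.kn x)) (C.ok w x y) x y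
    (pB R h (Fp X.mf W.p)) fun k => n.bn x y k.1 := by
  choose e he using vch hw W.ok h
  have o := (saC C (w := w) x y).op
  have a : (⟨fun z => W.p (cB R h z), 0⟩ : Ln E4 (XC C w x y) lam).On (𝓡 4) (tC C w x y ⁻¹' II x y) :=
    on_comp W.ln (cB_mp R h)
  refine ((saC C x y).coh ((saC C x y).wo (wc_line' he o a (W.tl h)).oc) (a.cl_F o).sm
    (cl_pB h (W.ln.cl_F isOpen_univ)).sm (ex_of_zero fun p hp => sub_eq_zero.2 ?_)).congr fun k _ => by
      rw [dr_rc2, (he _).2]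
  rw [pB, ← W.ln.F_pull isOpen_univ o (cB_mp R h) hp]
  exact a.F_congr o (fun _ _ => rfl) (fun z _ => congrFun (pm_zero _) z) hp

/-- the inside of the arc in a word -/
theorem ins_w (W : WL L R n lam) (h : w.Rg x y) (hs : (w.s y).l.2 = (w.s x).r.2) (hn : n.nl y = n.nr x) {N : ℕ}
    {ε : Fin N → Wd38.Wt} (hN : (Finset.filter (fun c => dt (w.lf c) (w.rt c) ≠ 0) (Finset.Ioc x y)).card = N + 2)
    (t : ∀ i, TOK w (ε i) ∧ Sup x y (ε i)) (g : ∀ i j, pr w x y (ε i) (ε j) = if i = j then -1 else 0) :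
    ∃ e f, Ins X.mf.I (-R.O) (R.D x y (Iio ((y - x) / 2 + 1 / 4))) (R.D x y (Iio ((y - x) / 2))) e
      (fun _ => -(2 * π) ^ 2) f ∧ ip X.mf.I (-R.O) (Fp X.mf W.p) f = 0 ∧
      ∀ i, ip X.mf.I (-R.O) (Fp X.mf W.p) (e i) = (2 * π) ^ 2 * pr w x y n (ε i) := by
  have H := saC C (w := w) x y
  have s : (C.T (w.kn x)).disc (wd (w.bz x y)) (cc x y) (Iio ((y - x) / 2 + 1 / 4)) ⊆ tC C w x y ⁻¹' II x y :=
    fun _ k => C.tm_disc k fun _ => id
  have tn : TOK w n := ⟨W.ok.rod, W.ok.eq, W.ok.neg⟩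
  obtain ⟨e, f, k, k'⟩ := ins H h.lt (s := 1) (by rw [bz_l hw h h.lt le_rfl, bz_r hw h le_rfl h.lt, hs, one_smul])
    (by simp) (N := N) (by
      classical
      rw [← hN, nv]
      refine congrArg _ (Finset.filter_congr fun c k => ?_)
      obtain ⟨a, b⟩ := Finset.mem_Ioc.1 k
      have := H.iw.step c
      rw [bz_r hw h (by omega) (by omega), bz_l hw h a b] at this ⊢
      exact ⟨fun u e => by have := u.sq; simp_all [Shp.lf, Shp.rt], fun u => this.resolve_left fun e => u e.dt_eq⟩)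
    (fun i => tra_bn hw (t i).1 h) (fun i => by
      simp [bn_le, bn_ge h.lt, (t i).2 x (.inl le_rfl), (t i).2 y (.inr le_rfl)])
    fun i j => (sl_bn hw (t i).1 (t j).1 h).trans (g i j)
  obtain ⟨k1, k2⟩ := k' _ _ (cl_pB h (W.ln.cl_F isOpen_univ)) (wo_line W h) (tra_bn hw tn h)
  have s' := (k.sub.trans s).trans (cB_src R h)
  have m : Int54.SameOn _ _ _ := fun p a => cB_same R h p (s (k.sub a))
  refine ⟨_, _, R.D_eq h (fun _ => id) ▸ R.D_eq h (fun _ a => lt_trans a (lt_add_of_pos_right _ (by norm_num))) ▸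
    k.push _ (s.trans (cB_src R h)) (ori_O R) m, ?_, fun i => ?_⟩
  · rw [k.cf.ip_psh _ s' (ori_O R) k.ori m, k1]
    simp [bn_le, bn_ge h.lt, hn]
  · rw [(k.cs i).ip_psh _ s' (ori_O R) k.ori m, k2, sl_bn hw tn (t i).1 h]

variable (R) in
/-- the inside of the arc over a constant rod -/
theorem rod_w (o : (Bs.rA x y).OK w) (hc : ∀ j, x < j → j ≤ y → w.s j = .rod (w.s x).r) {V D : Set X.mf.M}
    (hV : V = (R.D x y (Iic ((y - x) / 2)))ᶜ) (hD : D = R.D x y (Iio ((y - x) / 2 + 1 / 4))) :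
    IsOpen V ∧ IsOpen D ∧ HZ X.mf.I 2 D ∧ IsPreconnected (V ∩ D) ∧ Bd X.mf.I 1 (V ∩ D) 1 ∧ Bd X.mf.I 1 D 1 ∧
      ∃ a, Cl X.mf.I 1 D a ∧ ¬Ex X.mf.I (V ∩ D) a := by
  have sp := R.spec_nk _ o
  have sd := (R.nk _ o).h
  refine ⟨(sp.t.trans hV.symm).subst (sd.op true), rod_side (Ds83.Xi R o) (Ds83.Xi_src R o hc) sd.oe
    (fun q => ⟨(Bs.rA x y).ρ q.2 • (q.1.2 : E3), ?_, rfl⟩) (hD.trans (Ds83.Xi_img R o hc le_rfl))
    (Subset.antisymm (fun z k => ?_) ?_)⟩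
  · simpa [norm_smul, abs_of_pos ((o.1.arc hw (b := .rA x y) rfl (PM.refl _) o.2).pos _), Bs.r0] using
      ((Bs.rA x y).ρ_mem q.2).2
  · obtain ⟨q, rfl⟩ := sp.b.ge (((Sid48.sd_false_union R (.rA x y)).ge (hD.le k.2)).resolve_left
      fun m => hV.le k.1 (R.D_mono Iio_subset_Iic_self m))
    exact ⟨q, ⟨trivial, by simpa [M.pm] using sd.j_mem.1 (sp.t.ge (hV.le k.1))⟩, rfl⟩
  · rintro _ ⟨q, p, rfl⟩
    exact ⟨hV.ge (sp.t.le (sd.mem true q (by simpa [M.pm] using p.2))),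
      hD.ge (R.D_mono Ioo_subset_Iio_self (sp.b.le ⟨q, rfl⟩))⟩

/-- the surgery on words -/
theorem rn_w (W : WL L R n lam) (W' : WL L R' n' lam) (g : w.Sur w' x y)
    (hc : ∀ j, x < j → j ≤ y → w'.s j = .rod (w'.s x).r) (e : ∀ j, j ≤ x ∨ y ≤ j → n.nl j = n'.nl j ∧ n.nr j = n'.nr j)
    (mL : n.mL = n'.mL) (mR : n.mR = n'.mR) {N : ℕ} {ε : Fin N → Wd38.Wt}
    (hN : (Finset.filter (fun c => dt (w.lf c) (w.rt c) ≠ 0) (Finset.Ioc x y)).card = N + 2)
    (t : ∀ i, TOK w (ε i) ∧ Sup x y (ε i)) (gr : ∀ i j, pr w x y (ε i) (ε j) = if i = j then -1 else 0)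
    {β sg l2 β' sg' l2' : ℝ} (h : NbX X.mf (-R.O) W.p univ β sg l2) (h' : NbX X'.mf (-R'.O) W'.p univ β' sg' l2') :
    β = β' + 1 ∧ sg = sg' - N ∧ l2 = l2' - ∑ i, pr w x y n (ε i) ^ 2 := by
  have : CompactSpace X.mf.M := R.cpt
  have : CompactSpace X'.mf.M := R'.cpt
  have lt := g.rg.lt
  have ey : (w'.s y).l.2 = (w'.s x).r.2 := by rw [hc y lt le_rfl]; rfl
  have o : (Bs.rA x y).OK w' := ⟨g.rg', .inl ey⟩
  obtain ⟨e', f, k, k1, k2⟩ := ins_w W g.rg (by rw [← g.eq y (.inr le_rfl), ← g.eq x (.inl le_rfl), ey])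
    (by rw [(e y (.inr le_rfl)).1, (e x (.inl le_rfl)).2, (Ds83.okn (hw := hw') o hc W'.ok).1 ey]) hN t gr
  have H := g.symm.hc hw' hw
  obtain ⟨φ, c⟩ := exists_cm (R := R') (R' := R) H
  have c' : Cm R R' 0 w.l w.r True True φ.symm := by simpa only [neg_zero, add_zero, g.l, g.r] using c.symm H
  have dd : ∀ S, φ.toPartialEquiv.IsImage (R'.D x y S) (R.D x y S) := fun S _ k =>
    c.D (add_zero _).symm (add_zero _).symm g.rg'.lo g.rg'.hi k
  have u : Iic (((y : ℝ) - x) / 2 - 1 / 4) ⊆ Iic ((y - x) / 2) := Iic_subset_Iic.2 (by linarith)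
  have u' : Iic (((y : ℝ) - x) / 2) ⊆ Iio ((y - x) / 2 + 1 / 4) := Iic_subset_Iio.2 (by linarith)
  have s1 : (R'.D x y (Iic ((y - x) / 2)))ᶜ ⊆ φ.source := fun z k => c.sur g.symm fun m => k (R'.D_mono u m)
  have s2 : (R.D x y (Iic ((y - x) / 2)))ᶜ ⊆ φ.target := fun z k => c'.sur g fun m => k (R.D_mono u m)
  obtain ⟨r, r0, r1, r2, r3, r4, a, r5, r6⟩ := rod_w R' o hc rfl rfl
  obtain ⟨v, hv⟩ := exists_gm (A := {j | j ≤ x ∨ y ≤ j}) W' W c.toLc ⟨hw'.lt, fun j k => by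
    simp [Gd, g.eq j k, e j k], fun j J _ _ k => by
      by_contra! m
      simp only [mem_ofPred_eq, not_or, not_le] at m
      simp [hc j m.1 m.2.le] at k⟩ (cs_cm H c (fun _ => mL) fun _ => mR)
  have e1 := (dd (Iic ((y - x) / 2))).compl.image_eq
  have e2 := ((dd (Iic ((y - x) / 2))).compl.inter (dd (Iio ((y - x) / 2 + 1 / 4)))).image_eq
  rw [← inter_assoc, ← inter_assoc] at e2
  rw [inter_eq_right.2 s1, inter_eq_right.2 s2] at e1 e2
  have := sur (X := X.mf) (X' := X'.mf) φ k (disjoint_compl_right_iff_subset.2 (R.D_mono Iio_subset_Iic_self))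
    (univ_subset_iff.1 ((compl_union_self _).ge.trans (union_subset_union_right _ (R.D_mono u'))))
    (univ_subset_iff.1 ((compl_union_self _).ge.trans (union_subset_union_right _ (R'.D_mono u'))))
    r r0 s1 e1 e2 (c.pos.neg.mono s1) W.ln W'.ln
    (hv.toUni.mono (compl_D g.rg' (Iic_subset_Iic.2 (by linarith)) fun _ => id)) r1 r2 r3 r4 r5 r6 k1 h h'
  refine ⟨this.1, by simpa using this.2.1, this.2.2.trans ?_⟩
  rw [sub_eq_add_neg, ← Finset.sum_neg_distrib]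
  exact congrArg _ (Finset.sum_congr rfl fun i _ => by rw [k2]; field_simp)

variable {κ : Type} [Fintype κ] [DecidableEq lam] {G : Tab C.kd κ} {P : Pm Γ}

theorem card_ls (L : LP C G P lam) {D : Dt Γ} (h : D.OK P) (μ : ℤ × ℤ) : (L.scn h μ).ls.card = D.F.ls.card :=
  Finset.card_bij (fun a _ => a.1.b) (fun _ k => (Finset.mem_filter.1 k).2.2) (fun ⟨⟨_, _⟩, _⟩ k ⟨⟨_, _⟩, _⟩ k' e => by
    obtain ⟨rfl, -⟩ : _ = [] ∧ _ := (Finset.mem_filter.1 k).2
    obtain ⟨rfl, -⟩ : _ = [] ∧ _ := (Finset.mem_filter.1 k').2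
    cases e
    rfl) fun b k => ⟨⟨b, h.ls b k⟩, Finset.mem_filter.2 ⟨Finset.mem_univ _, rfl, k⟩, rfl⟩

/-- **BR-RN** -/
theorem rn (L : LP C G P lam) : RnStmt L := by
  rintro D D' h h' μ i i' x y b b' g hl - - hc e ⟨N, ε, Z, -, -, -, hN, t, gr, k, -, z, -⟩ β sg l2 β' sg' l2' a a'
  obtain ⟨r1, rfl, rfl⟩ := rn_w (L.W h.h0 (h.l0 i) μ) (L.W h'.h0 (h'.l0 i') μ) g hc e rfl rfl hN t gr
    ((L.p ..).subst (motive := (NbX _ _ · univ β sg l2)) a) ((L.p ..).subst (motive := (NbX _ _ · univ β' sg' l2')) a')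
  refine ⟨r1, ?_⟩
  have s : ∑ j, pr D.F.w x y (cp i.1 μ) (ε j) ^ 2 = N - Z.card := by
    erw [Finset.sum_congr rfl fun j _ => (sq_abs _).symm.trans (congrArg (· ^ 2) (k j))]
    simp [Finset.sum_ite, Finset.filter_not, Finset.card_sdiff, Nat.cast_sub (by simpa using Z.card_le_univ)]
  rw [s, card_ls, card_ls, hl, z, ← Finset.card_filter_add_card_filter_not (s := D.F.ls) fun l => x < l.lo ∧ l.hi < y]
  push_cast
  ring

end Crest.Agent.X212.Rn83
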